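import Mathlib
import Vale.Agent.Lib.P160.Final

namespace Vale.Agent.Results.P160.A_PairUnionLowerBound

open Vale.Agent.Lib.P160

/-- For every `n`, the singularity probability `q_n` of the random symmetric `n × n` sign
matrix satisfies `q_n ≥ n (n - 1) / 2 ^ n - (n + 1) n (n - 1) (n - 2) / 4 ^ n`. -/
theorem result (n : ℕ) :
    ((n : ℚ) * (n - 1)) / 2 ^ n - ((n + 1 : ℚ) * n * (n - 1) * (n - 2)) / 4 ^ n
      ≤ singProb n :=
  singProb_lower_bound n

end Vale.Agent.Results.P160.A_PairUnionLowerBound
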